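import Vale.Agent.P290.Bdl.B1

/-! P290Z, TUBE: three general lemmas of calculus. -/

set_option linter.all false

open Set Filter Metric MeasureTheory Asymptotics
open scoped Topology

namespace Vale.Agent.P290Z.Tb

open Vale.Agent.P290

section radial

variable {V : Type} [NormedAddCommGroup V] [NormedSpace ℂ V] [FiniteDimensional ℂ V]

/-- the radial contraction along the image of `π` -/
noncomputable def rad (π : V →L[ℂ] V) (t : ℝ) : V →L[ℂ] V :=
  ContinuousLinearMap.id ℂ V - π + (t : ℂ) • π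

theorem rad_apply (π : V →L[ℂ] V) (t : ℝ) (x : V) : rad π t x = x - π x + (t : ℂ) • π x := rfl

theorem rad_one (π : V →L[ℂ] V) (x : V) : rad π 1 x = x := by simp [rad_apply]

theorem continuous_rad (π : V →L[ℂ] V) : Continuous (rad π) := by
  unfold rad
  fun_prop

/-- The primitive along the image of the projection `π` of a form which is closed along it. -/
theorem radial (π : V →L[ℂ] V) (hπ : ∀ x, π (π x) = π x) {D : Set V} (hD : IsOpen D)
    (hs : ∀ x ∈ D, ∀ t ∈ Icc (0 : ℝ) 1, rad π t x ∈ D) {η : V → V →L[ℂ] ℂ}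
    (hη : DifferentiableOn ℂ η D)
    (hc : ∀ x ∈ D, ∀ a b, fderiv ℂ η x (π a) (π b) = fderiv ℂ η x (π b) (π a)) :
    ∃ W : V → ℂ, (∀ x, π x = 0 → W x = 0) ∧
      ∀ x ∈ D, ∃ W' : V →L[ℂ] ℂ, HasFDerivAt W W' x ∧ ∀ a, W' (π a) = η x (π a) := by
  have h1 : ContinuousOn η D := hη.continuousOn
  have h2 : ContinuousOn (fderiv ℂ η) D := (differentiableOn_fderiv hD hη).continuousOn
  let F : V → ℝ → ℂ := fun x t => η (rad π t x) (π x)
  let F' : V → ℝ → V →L[ℂ] ℂ := fun x t =>
    (η (rad π t x)).comp π + ((fderiv ℂ η (rad π t x)).comp (rad π t)).flip (π x)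
  have hR : Continuous fun z : V × ℝ => rad π z.2 z.1 :=
    ((continuous_rad π).comp continuous_snd).clm_apply continuous_fst
  have a1 : ∀ x ∈ D, ∀ t ∈ Icc (0 : ℝ) 1, ContinuousAt (fun z : V × ℝ => η (rad π z.2 z.1)) (x, t) :=
    fun x hx t ht => ContinuousAt.comp (f := fun z : V × ℝ => rad π z.2 z.1)
      (h1.continuousAt (hD.mem_nhds (hs x hx t ht))) hR.continuousAt
  have a2 : ∀ x ∈ D, ∀ t ∈ Icc (0 : ℝ) 1,
      ContinuousAt (fun z : V × ℝ => fderiv ℂ η (rad π z.2 z.1)) (x, t) :=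
    fun x hx t ht => ContinuousAt.comp (f := fun z : V × ℝ => rad π z.2 z.1)
      (h2.continuousAt (hD.mem_nhds (hs x hx t ht))) hR.continuousAt
  have a3 : ∀ x ∈ D, ∀ t ∈ Icc (0 : ℝ) 1, ContinuousAt (fun z : V × ℝ => F' z.1 z.2) (x, t) := by
    intro x hx t ht
    refine ((a1 x hx t ht).clm_comp continuousAt_const).add ?_
    refine ContinuousAt.clm_apply ?_ (π.continuous.comp continuous_fst).continuousAt
    exact (ContinuousLinearMap.flipₗᵢ ℂ V V ℂ).continuous.continuousAt.comp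
      ((a2 x hx t ht).clm_comp ((continuous_rad π).comp continuous_snd).continuousAt)
  have b1 : ∀ x ∈ D, ContinuousOn (F x) (Icc 0 1) := fun x hx t ht =>
    (((a1 x hx t ht).comp (f := fun t : ℝ => (x, t)) (by fun_prop)).clm_apply
      continuousAt_const).continuousWithinAt
  have b2 : ∀ x ∈ D, ContinuousOn (F' x) (Icc 0 1) := fun x hx t ht =>
    ((a3 x hx t ht).comp (f := fun t : ℝ => (x, t)) (by fun_prop)).continuousWithinAt
  have hI : Set.uIoc (0 : ℝ) 1 ⊆ Icc 0 1 := by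
    rw [uIoc_of_le zero_le_one]
    exact Ioc_subset_Icc_self
  refine ⟨fun x => ∫ t in (0 : ℝ)..1, F x t, fun x hx => by simp [F, hx], fun x hx => ?_⟩
  obtain ⟨M, hM⟩ := isCompact_Icc.exists_bound_of_continuousOn (b2 x hx)
  have c1 : ∀ᶠ y in 𝓝 x, ∀ t ∈ Icc (0 : ℝ) 1, ‖F' y t‖ < M + 1 :=
    isCompact_Icc.eventually_forall_of_forall_eventually fun t ht =>
      (a3 x hx t ht).norm.eventually (gt_mem_nhds (by linarith [hM t ht]))
  have c2 : IntervalIntegrable (F' x) volume 0 1 :=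
    (b2 x hx).intervalIntegrable_of_Icc zero_le_one
  refine ⟨∫ t in (0 : ℝ)..1, F' x t, ?_, fun a => ?_⟩
  · refine intervalIntegral.hasFDerivAt_integral_of_dominated_of_fderiv_le
      (s := D ∩ {y | ∀ t ∈ Icc (0 : ℝ) 1, ‖F' y t‖ < M + 1}) (bound := fun _ => M + 1)
      (inter_mem (hD.mem_nhds hx) c1) ?_ ((b1 x hx).intervalIntegrable_of_Icc zero_le_one)
      (((b2 x hx).mono hI).aestronglyMeasurable measurableSet_uIoc) ?_ intervalIntegrable_const ?_
    · filter_upwards [hD.mem_nhds hx] with y hy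
      exact ((b1 y hy).mono hI).aestronglyMeasurable measurableSet_uIoc
    · exact Eventually.of_forall fun t ht y hy => (hy.2 t (hI ht)).le
    · refine Eventually.of_forall fun t ht y hy => ?_
      have h3 := (hη.differentiableAt (hD.mem_nhds (hs y hy.1 t (hI ht)))).hasFDerivAt
      exact (h3.comp y (rad π t).hasFDerivAt).clm_apply π.hasFDerivAt
  · rw [ContinuousLinearMap.intervalIntegral_apply c2]
    have h3 : ∀ t ∈ uIcc (0 : ℝ) 1,
        HasDerivAt (fun t : ℝ => (t : ℂ) * η (rad π t x) (π a)) (F' x t (π a)) t := by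
      intro t ht
      rw [uIcc_of_le zero_le_one] at ht
      have h4 := (hη.differentiableAt (hD.mem_nhds (hs x hx t ht))).hasFDerivAt
      have h5 : HasDerivAt (fun t : ℝ => (t : ℂ)) 1 t := Complex.ofRealCLM.hasDerivAt
      have h6 : HasDerivAt (fun t : ℝ => rad π t x) (π x) t := by
        simpa [rad_apply] using (h5.smul_const (π x)).const_add (x - π x)
      have h7 := (h4.restrictScalars ℝ).comp_hasDerivAt t h6
      have h8 := (((ContinuousLinearMap.apply ℂ ℂ (π a)).restrictScalars ℝ).hasFDerivAt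
        ).comp_hasDerivAt t h7
      have e : rad π t (π a) = (t : ℂ) • π a := by simp [rad_apply, hπ]
      refine (h5.mul h8).congr_deriv ?_
      simp [F', hπ, e, hc _ (hs x hx t ht) a x]
    rw [intervalIntegral.integral_eq_sub_of_hasDerivAt h3
      (((b2 x hx).clm_apply continuousOn_const).intervalIntegrable_of_Icc zero_le_one)]
    simp [rad_one]

end radial

/-- A map which is constant along the fibres of a submersion `N`, composed with a section. -/
theorem lift_diff {V Q Z : Type} [NormedAddCommGroup V] [NormedSpace ℂ V] [NormedAddCommGroup Q]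
    [NormedSpace ℂ Q] [FiniteDimensional ℂ Q] [NormedAddCommGroup Z] [NormedSpace ℂ Z]
    {N : V → Q} {N' : V →L[ℂ] Q} {Y : V → Z} {Y' : V →L[ℂ] Z} {Ψ : Q → V} {q₀ : Q}
    (hN : HasFDerivAt N N' (Ψ q₀)) (hY : HasFDerivAt Y Y' (Ψ q₀)) (hs : Function.Surjective N')
    (hk : ∀ X, N' X = 0 → Y' X = 0) (hΨ : ∀ᶠ q in 𝓝 q₀, N (Ψ q) = q)
    (hO : (fun q => Ψ q - Ψ q₀) =O[𝓝 q₀] fun q => q - q₀) :
    DifferentiableAt ℂ (fun q => Y (Ψ q)) q₀ := by
  obtain ⟨R, hR⟩ := N'.exists_rightInverse_of_surjective (LinearMap.range_eq_top.2 hs)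
  have hR' : ∀ q, N' (R q) = q := fun q => DFunLike.congr_fun hR q
  have hL : ∀ X, Y' (R (N' X)) = Y' X := fun X => by
    have := hk (R (N' X) - X) (by rw [map_sub, hR', sub_self])
    rwa [map_sub, sub_eq_zero] at this
  have hT : Tendsto Ψ (𝓝 q₀) (𝓝 (Ψ q₀)) := by
    have h1 : Tendsto (fun q => q - q₀) (𝓝 q₀) (𝓝 0) := by
      simpa using (tendsto_id (x := 𝓝 q₀)).sub_const q₀
    simpa using (hO.trans_tendsto h1).add_const (Ψ q₀)
  have e1 := (hY.isLittleO.comp_tendsto hT).trans_isBigO hO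
  have e2 := ((Y'.comp R).isBigO_comp _ _).trans_isLittleO
    ((hN.isLittleO.comp_tendsto hT).trans_isBigO hO)
  refine (HasFDerivAt.of_isLittleO (f' := Y'.comp R) ((e1.sub e2).congr' ?_ EventuallyEq.rfl)
    ).differentiableAt
  filter_upwards [hΨ] with q hq
  simp only [Function.comp_apply, ContinuousLinearMap.comp_apply, hq, hΨ.self_of_nhds, map_sub, hL]
  abel

/-- Small perturbations of the identity of the plane. -/
theorem perturb {f : ℂ → ℂ} {σ : ℝ} (h0 : 0 ≤ σ) (h1 : σ ≤ 1 / 2)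
    (hf : ∀ z, ∃ f' : ℂ →L[ℝ] ℂ, HasFDerivAt f f' z ∧ ∀ a, ‖f' a - a‖ ≤ σ * ‖a‖) :
    Function.Surjective f ∧ (∀ z z', ‖f z - z - (f z' - z')‖ ≤ σ * ‖z - z'‖) ∧
      ∀ z z', ‖z - z'‖ ≤ 2 * ‖f z - f z'‖ := by
  choose f' h2 h3 using hf
  have h4 : ∀ z z', ‖f z - z - (f z' - z')‖ ≤ σ * ‖z - z'‖ := fun z z' =>
    convex_univ.norm_image_sub_le_of_norm_hasFDerivWithin_le (𝕜 := ℝ) (f := fun z => f z - z)
      (f' := fun z => f' z - ContinuousLinearMap.id ℝ ℂ)
      (fun z _ => ((h2 z).sub (hasFDerivAt_id z)).hasFDerivWithinAt)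
      (fun z _ => ContinuousLinearMap.opNorm_le_bound _ h0 (h3 z)) (mem_univ z') (mem_univ z)
  refine ⟨fun w => ?_, h4, fun z z' => ?_⟩
  · have h5 : ContractingWith (1 / 2) fun z => w - (f z - z) := by
      refine ⟨by norm_num, LipschitzWith.of_dist_le_mul fun z z' => ?_⟩
      rw [dist_eq_norm, dist_eq_norm, sub_sub_sub_cancel_left, norm_sub_rev]
      refine (h4 z z').trans (mul_le_mul_of_nonneg_right ?_ (norm_nonneg _))
      simpa using h1
    have h6 : w - (f _ - _) = _ := h5.fixedPoint_isFixedPt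
    exact ⟨h5.fixedPoint _, by linear_combination -h6⟩
  · have h5 := h4 z z'
    have h6 : ‖z - z'‖ ≤ ‖f z - f z'‖ + ‖f z - z - (f z' - z')‖ := by
      have : z - z' = (f z - f z') - (f z - z - (f z' - z')) := by ring
      conv_lhs => rw [this]
      exact norm_sub_le _ _
    nlinarith [norm_nonneg (z - z')]

end Vale.Agent.P290Z.Tb
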